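import Mathlib
import Vale.Agent.Lib.P243.R3.Defs

/-!
# P243 (r_3 > 1/3): compactness of the family of normalised convex bodies

A convex body is normalised when it lies between the standard simplex `Simp3` and the cube
`Cube3`.  The family of normalised bodies is compact for the Hausdorff distance, and bodies
that are Hausdorff-close are sandwiched between homothetic copies of each other.  The outcome
`exists_finite_sandwich`: for every positive function `η` on normalised bodies there are
finitely many normalised bodies `K'` such that every normalised body `K` satisfies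
`hom c (1 - η K') '' K' ⊆ K ⊆ hom c (1 + η K') '' K'` for one of them.
-/

namespace Vale.Agent.Lib.P243.R3.H10

open Set Metric TopologicalSpace

/-- Upper sandwich: if every point of `K` is within `η ρ` of the convex set `K'`, which
contains the ball of radius `ρ` about `c`, then `K` is inside the `(1 + η)`-copy of `K'`. -/
lemma sandwich_upper {K K' : Set E3} {c : E3} {ρ η : ℝ} (hη : 0 < η)
    (hconv : Convex ℝ K') (hball : closedBall c ρ ⊆ K')
    (hnear : ∀ x ∈ K, ∃ z ∈ K', dist x z ≤ η * ρ) :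
    K ⊆ hom c (1 + η) '' K' := by
  intro x hx
  obtain ⟨z, hz, hxz⟩ := hnear x hx
  have h1 : (0 : ℝ) < 1 + η := by linarith
  refine ⟨c + (1 + η)⁻¹ • (x - c), ?_, ?_⟩
  · have hw : c + η⁻¹ • (x - z) ∈ K' := by
      refine hball ?_
      rw [mem_closedBall, dist_eq_norm, add_sub_cancel_left, norm_smul, norm_inv,
        Real.norm_of_nonneg hη.le, inv_mul_le_iff₀ hη, ← dist_eq_norm]
      exact hxz
    have ha : (1 + η)⁻¹ * (1 + η) = 1 := inv_mul_cancel₀ h1.ne'
    have hb : η * η⁻¹ = 1 := mul_inv_cancel₀ hη.ne'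
    have hcomb : c + (1 + η)⁻¹ • (x - c)
        = (1 + η)⁻¹ • z + (η * (1 + η)⁻¹) • (c + η⁻¹ • (x - z)) := by
      linear_combination (norm := module) (-1 : ℝ) • ha • c - (1 + η)⁻¹ • hb • (x - z)
    rw [hcomb]
    refine hconv hz hw (by positivity) (by positivity) ?_
    field_simp
  · simp only [hom, add_sub_cancel_left, smul_smul]
    rw [mul_inv_cancel₀ h1.ne', one_smul, add_sub_cancel]

/-- Lower sandwich: if every point of the convex set `K'` (which contains the ball of radius
`ρ` about `c`) is within less than `η ρ` of the closed convex set `K`, then the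
`(1 - η)`-copy of `K'` is inside `K`. -/
lemma sandwich_lower {K K' : Set E3} {c : E3} {ρ η : ℝ} (hη : 0 < η) (hη1 : η ≤ 1) (hρ : 0 < ρ)
    (hKne : K.Nonempty) (hKcl : IsClosed K) (hKconv : Convex ℝ K)
    (hconv : Convex ℝ K') (hball : closedBall c ρ ⊆ K')
    (hnear : ∀ w ∈ K', ∃ k ∈ K, dist w k < η * ρ) :
    hom c (1 - η) '' K' ⊆ K := by
  rintro _ ⟨x, hx, rfl⟩
  by_contra hy
  set y : E3 := hom c (1 - η) x with hydef
  obtain ⟨k0, hk0, hk0min⟩ :=
    exists_norm_eq_iInf_of_complete_convex hKne hKcl.isComplete hKconv y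
  have hproj := (norm_eq_iInf_iff_real_inner_le_zero hKconv hk0).1 hk0min
  set v : E3 := y - k0 with hv
  have hvne : v ≠ 0 := by
    intro h0
    apply hy
    have : y = k0 := sub_eq_zero.1 h0
    rw [this]
    exact hk0
  have hvpos : 0 < ‖v‖ := norm_pos_iff.2 hvne
  set w : E3 := y + (η * ρ / ‖v‖) • v with hw
  have hwK' : w ∈ K' := by
    have hb : c + (ρ / ‖v‖) • v ∈ K' := by
      refine hball ?_
      rw [mem_closedBall, dist_eq_norm, add_sub_cancel_left, norm_smul, norm_div,
        Real.norm_of_nonneg hρ.le, norm_norm, div_mul_cancel₀ _ hvpos.ne']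
    have hcomb : w = (1 - η) • x + η • (c + (ρ / ‖v‖) • v) := by
      rw [hw, hydef]
      simp only [hom, smul_add, smul_sub, sub_smul, one_smul, smul_smul]
      rw [show η * (ρ / ‖v‖) = η * ρ / ‖v‖ by ring]
      abel
    rw [hcomb]
    exact hconv hx hb (by linarith) hη.le (by ring)
  obtain ⟨k, hk, hwk⟩ := hnear w hwK'
  have h1 : inner ℝ v (w - k) ≤ ‖v‖ * ‖w - k‖ := real_inner_le_norm _ _
  have h2 : inner ℝ v (w - k) = ‖v‖ ^ 2 + η * ρ * ‖v‖ - inner ℝ v (k - k0) := by
    have e : w - k = v + (η * ρ / ‖v‖) • v - (k - k0) := by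
      rw [hw, hv]
      abel
    rw [e, inner_sub_right, inner_add_right, inner_smul_right, real_inner_self_eq_norm_sq]
    congr 1
    field_simp
  have h3 : inner ℝ v (k - k0) ≤ 0 := hproj k hk
  rw [dist_eq_norm] at hwk
  nlinarith [mul_lt_mul_of_pos_left hwk hvpos, sq_nonneg ‖v‖]

lemma isClosed_Cube3 : IsClosed Cube3 := by
  have h : Cube3 = ⋂ i : Fin 3, {x : E3 | |x i| ≤ 1} := by
    ext x
    simp [Cube3]
  rw [h]
  exact isClosed_iInter fun i =>
    isClosed_le (continuous_abs.comp (PiLp.continuous_apply 2 (fun _ : Fin 3 => ℝ) i))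
      continuous_const

lemma isCompact_Cube3 : IsCompact Cube3 := by
  refine Metric.isCompact_of_isClosed_isBounded isClosed_Cube3 ?_
  refine (Metric.isBounded_closedBall (x := (0 : E3)) (r := 2)).subset ?_
  intro x hx
  rw [mem_closedBall, dist_zero_right, EuclideanSpace.norm_eq, Real.sqrt_le_iff]
  refine ⟨by norm_num, ?_⟩
  rw [Fin.sum_univ_three]
  have h : ∀ i : Fin 3, ‖x i‖ ^ 2 ≤ 1 := by
    intro i
    rw [Real.norm_eq_abs, sq_abs, sq_le_one_iff_abs_le_one]
    exact hx i
  linarith [h 0, h 1, h 2]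

/-- The family of normalised bodies, as nonempty compact sets. -/
def normFam : Set (NonemptyCompacts E3) :=
  {L | Convex ℝ (L : Set E3) ∧ Simp3 ⊆ (L : Set E3) ∧ (L : Set E3) ⊆ Cube3}

lemma isClosed_convex_fam : IsClosed {L : NonemptyCompacts E3 | Convex ℝ (L : Set E3)} := by
  refine isClosed_of_closure_subset fun L hL => ?_
  rw [Metric.mem_closure_iff] at hL
  intro x hx y hy a b ha hb hab
  have hLcl : IsClosed (L : Set E3) := L.isCompact.isClosed
  rw [hLcl.mem_iff_infDist_zero L.nonempty]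
  refine le_antisymm ?_ infDist_nonneg
  refine le_of_forall_pos_le_add fun ε hε => ?_
  obtain ⟨L', hL', hd⟩ := hL (ε / 2) (by positivity)
  rw [Metric.NonemptyCompacts.dist_eq] at hd
  have hfin : hausdorffEDist (L : Set E3) (L' : Set E3) ≠ ⊤ :=
    hausdorffEDist_ne_top_of_nonempty_of_bounded L.nonempty L'.nonempty
      L.isCompact.isBounded L'.isCompact.isBounded
  obtain ⟨x', hx', hxx'⟩ := exists_dist_lt_of_hausdorffDist_lt hx hd hfin
  obtain ⟨y', hy', hyy'⟩ := exists_dist_lt_of_hausdorffDist_lt hy hd hfin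
  have hz' : a • x' + b • y' ∈ (L' : Set E3) := hL' hx' hy' ha hb hab
  obtain ⟨z, hz, hzz'⟩ := exists_dist_lt_of_hausdorffDist_lt' hz' hd hfin
  have e1 : dist (a • x + b • y) (a • x' + b • y') ≤ ε / 2 := by
    rw [dist_eq_norm]
    have e : a • x + b • y - (a • x' + b • y') = a • (x - x') + b • (y - y') := by module
    rw [e]
    calc ‖a • (x - x') + b • (y - y')‖ ≤ ‖a • (x - x')‖ + ‖b • (y - y')‖ := norm_add_le _ _
      _ = a * dist x x' + b * dist y y' := by
          rw [norm_smul, norm_smul, Real.norm_of_nonneg ha, Real.norm_of_nonneg hb,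
            dist_eq_norm, dist_eq_norm]
      _ ≤ a * (ε / 2) + b * (ε / 2) := by gcongr
      _ = ε / 2 := by rw [← add_mul, hab, one_mul]
  calc infDist (a • x + b • y) L ≤ dist (a • x + b • y) z := infDist_le_dist_of_mem hz
    _ ≤ dist (a • x + b • y) (a • x' + b • y') + dist (a • x' + b • y') z := dist_triangle _ _ _
    _ ≤ ε / 2 + ε / 2 := by
        refine add_le_add e1 ?_
        rw [dist_comm]
        exact hzz'.le
    _ = 0 + ε := by ring

lemma isCompact_normFam : IsCompact normFam := by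
  have h1 : IsCompact {L : NonemptyCompacts E3 | (L : Set E3) ⊆ Cube3} :=
    NonemptyCompacts.isCompact_subsets_of_isCompact isCompact_Cube3
  refine h1.of_isClosed_subset ?_ (fun L hL => hL.2.2)
  have hA : IsClosed {L : NonemptyCompacts E3 | Simp3 ⊆ (L : Set E3)} := by
    have h : {L : NonemptyCompacts E3 | Simp3 ⊆ (L : Set E3)}
        = ⋂ x ∈ Simp3, {L : NonemptyCompacts E3 | ((L : Set E3) ∩ {x}).Nonempty} := by
      ext L
      simp only [mem_iInter]
      exact ⟨fun h x hx => ⟨x, h hx, rfl⟩, fun h x hx => by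
        obtain ⟨y, hy, hyx⟩ := h x hx
        rw [mem_singleton_iff] at hyx
        rw [← hyx]
        exact hy⟩
    rw [h]
    exact isClosed_biInter fun x _ =>
      NonemptyCompacts.isClosed_inter_nonempty_of_isClosed isClosed_singleton
  have h2 : normFam = {L : NonemptyCompacts E3 | Convex ℝ (L : Set E3)}
      ∩ ({L : NonemptyCompacts E3 | Simp3 ⊆ (L : Set E3)}
        ∩ {L : NonemptyCompacts E3 | (L : Set E3) ⊆ Cube3}) := rfl
  rw [h2]
  exact isClosed_convex_fam.inter
    (hA.inter (NonemptyCompacts.isClosed_subsets_of_isClosed isClosed_Cube3))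

/-- Finite sandwich cover.  Let the closed ball of radius `ρ` about `c` lie in the standard
simplex and let `η` be a function with values in `(0, 1]` on normalised bodies.  Then there are
finitely many normalised bodies `K'` such that every normalised body `K` lies between the
`(1 - η K')`-copy and the `(1 + η K')`-copy of one of them (homotheties about `c`). -/
theorem exists_finite_sandwich (c : E3) (ρ : ℝ) (hρ : 0 < ρ) (hc : closedBall c ρ ⊆ Simp3)
    (η : Set E3 → ℝ)
    (hη : ∀ K, Body K → Simp3 ⊆ K → K ⊆ Cube3 → 0 < η K ∧ η K ≤ 1) :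
    ∃ F : Finset (Set E3), (∀ K ∈ F, Body K ∧ Simp3 ⊆ K ∧ K ⊆ Cube3) ∧
      ∀ K, Body K → Simp3 ⊆ K → K ⊆ Cube3 →
        ∃ K' ∈ F, hom c (1 - η K') '' K' ⊆ K ∧ K ⊆ hom c (1 + η K') '' K' := by
  classical
  have hbody : ∀ L ∈ normFam, Body (L : Set E3) := fun L hL =>
    ⟨hL.1, L.isCompact, ⟨c, mem_interior.2 ⟨ball c ρ,
      (ball_subset_closedBall.trans hc).trans hL.2.1, isOpen_ball, mem_ball_self hρ⟩⟩⟩
  obtain ⟨t, ht, hcover⟩ := isCompact_normFam.elim_nhds_subcover
    (fun L => ball L (η (L : Set E3) * ρ))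
    (fun L hL => ball_mem_nhds L (mul_pos (hη _ (hbody L hL) hL.2.1 hL.2.2).1 hρ))
  refine ⟨t.image (fun L : NonemptyCompacts E3 => (L : Set E3)), ?_, ?_⟩
  · intro K hK
    obtain ⟨L, hL, rfl⟩ := Finset.mem_image.1 hK
    exact ⟨hbody L (ht L hL), (ht L hL).2.1, (ht L hL).2.2⟩
  · intro K hK hS hC
    set LK : NonemptyCompacts E3 := ⟨⟨K, hK.compact⟩, hK.int.mono interior_subset⟩ with hLK
    have hmem : LK ∈ normFam := ⟨hK.conv, hS, hC⟩
    obtain ⟨L', hL't, hL'⟩ := mem_iUnion₂.1 (hcover hmem)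
    have hL'n := ht L' hL't
    obtain ⟨hη0, hη1⟩ := hη _ (hbody L' hL'n) hL'n.2.1 hL'n.2.2
    rw [mem_ball, Metric.NonemptyCompacts.dist_eq] at hL'
    have hL'' : hausdorffDist K (L' : Set E3) < η (L' : Set E3) * ρ := hL'
    have hfin : hausdorffEDist K (L' : Set E3) ≠ ⊤ :=
      hausdorffEDist_ne_top_of_nonempty_of_bounded LK.nonempty L'.nonempty
        hK.compact.isBounded L'.isCompact.isBounded
    refine ⟨L', Finset.mem_image_of_mem _ hL't, ?_, ?_⟩
    · refine sandwich_lower hη0 hη1 hρ LK.nonempty hK.compact.isClosed hK.conv hL'n.1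
        (hc.trans hL'n.2.1) ?_
      intro w hw
      obtain ⟨k, hk, hkw⟩ := exists_dist_lt_of_hausdorffDist_lt' hw hL'' hfin
      exact ⟨k, hk, by rwa [dist_comm]⟩
    · refine sandwich_upper hη0 hL'n.1 (hc.trans hL'n.2.1) ?_
      intro x hx
      obtain ⟨z, hz, hxz⟩ := exists_dist_lt_of_hausdorffDist_lt hx hL'' hfin
      exact ⟨z, hz, hxz.le⟩

end Vale.Agent.Lib.P243.R3.H10
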