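import Mathlib
import Vale.Agent.Lib.P243.R3.Defs

/-!
# P243 (r_3 > 1/3): affine normalisation of a convex body

Every convex body `K` of Euclidean 3-space has an affine image `T K` with
`Simp3 ⊆ T K ⊆ Cube3`: map a tetrahedron of maximal volume inscribed in `K` to the standard
simplex; by maximality every coordinate of every point of `T K` has absolute value at most one.
-/

namespace Vale.Agent.Lib.P243.R3.H10

open Set Matrix

/-- The matrix whose columns are the edge vectors `q j - p`. -/
noncomputable def tetMat (p : E3) (q : Fin 3 → E3) : Matrix (Fin 3) (Fin 3) ℝ :=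
  Matrix.of fun i j => (q j - p) i

lemma tetMat_update (p : E3) (q : Fin 3 → E3) (i : Fin 3) (x : E3) :
    tetMat p (Function.update q i x) = (tetMat p q).updateCol i (fun r => (x - p) r) := by
  ext r c
  by_cases h : c = i
  · subst h
    simp [tetMat]
  · simp [tetMat, h]

lemma continuous_det_tetMat :
    Continuous fun z : E3 × (Fin 3 → E3) => |(tetMat z.1 z.2).det| := by
  refine continuous_abs.comp (Continuous.matrix_det ?_)
  refine continuous_matrix fun i j => ?_
  show Continuous fun z : E3 × (Fin 3 → E3) => (z.2 j - z.1) i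
  have h1 : Continuous fun z : E3 × (Fin 3 → E3) => z.2 j - z.1 :=
    ((continuous_apply j).comp continuous_snd).sub continuous_fst
  exact (PiLp.continuous_apply 2 (fun _ : Fin 3 => ℝ) i).comp h1

/-- The linear equivalence of `E3` given by an invertible matrix. -/
noncomputable def matEquiv (A : Matrix (Fin 3) (Fin 3) ℝ) (hA : A.det ≠ 0) : E3 ≃L[ℝ] E3 :=
  (LinearEquiv.ofLinearMap (Matrix.toLpLin 2 2 A⁻¹) (Matrix.toLpLin 2 2 A)
    (by
      ext x : 1
      simp only [LinearMap.comp_apply, Matrix.toLpLin_apply, LinearMap.id_apply]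
      rw [Matrix.mulVec_mulVec, Matrix.nonsing_inv_mul A (isUnit_iff_ne_zero.2 hA),
        Matrix.one_mulVec])
    (by
      ext x : 1
      simp only [LinearMap.comp_apply, Matrix.toLpLin_apply, LinearMap.id_apply]
      rw [Matrix.mulVec_mulVec, Matrix.mul_nonsing_inv A (isUnit_iff_ne_zero.2 hA),
        Matrix.one_mulVec])).toContinuousLinearEquiv

lemma matEquiv_apply (A : Matrix (Fin 3) (Fin 3) ℝ) (hA : A.det ≠ 0) (x : E3) :
    matEquiv A hA x = WithLp.toLp 2 (A⁻¹ *ᵥ x.ofLp) := by
  simp [matEquiv, Matrix.toLpLin_apply]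

/-- Affine normalisation: a convex body has an affine image between the standard simplex and
the cube `[-1, 1]^3`. -/
theorem exists_normalisation (K : Set E3) (hK : Body K) :
    ∃ (L : E3 ≃L[ℝ] E3) (v : E3), Simp3 ⊆ aff L v '' K ∧ aff L v '' K ⊆ Cube3 := by
  classical
  obtain ⟨c, hc⟩ := hK.int
  obtain ⟨r, hr, hball⟩ := Metric.isOpen_iff.1 isOpen_interior c hc
  have hballK : Metric.ball c r ⊆ K := hball.trans interior_subset
  set T : Set (E3 × (Fin 3 → E3)) := K ×ˢ (Set.univ.pi fun _ => K) with hT
  have hTc : IsCompact T := hK.compact.prod (isCompact_univ_pi fun _ => hK.compact)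
  have hcK : c ∈ K := hballK (Metric.mem_ball_self hr)
  have hTne : T.Nonempty := ⟨(c, fun _ => c), hcK, fun _ _ => hcK⟩
  obtain ⟨z, hzT, hzmax⟩ := hTc.exists_isMaxOn hTne continuous_det_tetMat.continuousOn
  obtain ⟨p, q⟩ := z
  have hp : p ∈ K := hzT.1
  have hq : ∀ j, q j ∈ K := fun j => hzT.2 j (Set.mem_univ j)
  have hmax : ∀ p' ∈ K, ∀ q' : Fin 3 → E3, (∀ j, q' j ∈ K) →
      |(tetMat p' q').det| ≤ |(tetMat p q).det| := by
    intro p' hp' q' hq'
    exact isMaxOn_iff.1 hzmax (p', q') ⟨hp', fun j _ => hq' j⟩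
  have hpos : 0 < |(tetMat p q).det| := by
    have hin : ∀ j : Fin 3, c + EuclideanSpace.single j (r / 2) ∈ K := by
      intro j
      refine hballK ?_
      rw [Metric.mem_ball, dist_eq_norm, add_sub_cancel_left, PiLp.norm_single,
        Real.norm_of_nonneg (by positivity)]
      linarith
    have h1 := hmax c hcK (fun j => c + EuclideanSpace.single j (r / 2)) hin
    refine lt_of_lt_of_le ?_ h1
    have h2 : tetMat c (fun j => c + EuclideanSpace.single j (r / 2))
        = (r / 2) • (1 : Matrix (Fin 3) (Fin 3) ℝ) := by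
      ext i j
      simp [tetMat, Matrix.one_apply]
    rw [h2, Matrix.det_smul, Matrix.det_one]
    simp only [Fintype.card_fin, mul_one]
    positivity
  set A := tetMat p q with hA
  have hdet : A.det ≠ 0 := abs_pos.1 hpos
  refine ⟨matEquiv A hdet, -(matEquiv A hdet p), ?_, ?_⟩
  · intro y hy
    refine ⟨p + ∑ j, y j • (q j - p), ?_, ?_⟩
    · have hsum : p + ∑ j, y j • (q j - p)
          = ∑ k : Fin 4, (![1 - (y 0 + y 1 + y 2), y 0, y 1, y 2] : Fin 4 → ℝ) k
              • (![p, q 0, q 1, q 2] : Fin 4 → E3) k := by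
        simp only [Fin.sum_univ_three, Fin.sum_univ_four, Matrix.cons_val_zero,
          Matrix.cons_val_one, Matrix.cons_val]
        simp only [smul_sub, sub_smul, add_smul, one_smul]
        abel
      rw [hsum]
      refine hK.conv.sum_mem ?_ ?_ ?_
      · intro k _
        fin_cases k
        · simp only [Fin.zero_eta, Matrix.cons_val_zero]
          linarith [hy.2]
        · simpa using hy.1 0
        · simpa using hy.1 1
        · simpa using hy.1 2
      · simp only [Fin.sum_univ_four, Matrix.cons_val_zero, Matrix.cons_val_one, Matrix.cons_val]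
        ring
      · intro k _
        fin_cases k
        · simpa using hp
        · simpa using hq 0
        · simpa using hq 1
        · simpa using hq 2
    · show matEquiv A hdet (p + ∑ j, y j • (q j - p)) + -(matEquiv A hdet p) = y
      rw [map_add, add_neg_cancel_comm, matEquiv_apply]
      have h3 : (∑ j, y j • (q j - p)).ofLp = A *ᵥ y.ofLp := by
        ext i
        simp [Matrix.mulVec, dotProduct, hA, tetMat, mul_comm]
      rw [h3, Matrix.mulVec_mulVec, Matrix.nonsing_inv_mul A (isUnit_iff_ne_zero.2 hdet),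
        Matrix.one_mulVec]
  · rintro _ ⟨x, hx, rfl⟩
    intro i
    show |(matEquiv A hdet x + -(matEquiv A hdet p)) i| ≤ 1
    rw [← sub_eq_add_neg, ← map_sub, matEquiv_apply]
    have hup := hmax p hp (Function.update q i x) (fun j => by
      by_cases h : j = i
      · subst h
        simpa using hx
      · simpa [Function.update_of_ne h] using hq j)
    rw [tetMat_update] at hup
    have hcr : (A⁻¹ *ᵥ (x - p).ofLp) i
        = (A.det)⁻¹ * (A.updateCol i (fun r => (x - p) r)).det := by
      rw [Matrix.inv_def, Ring.inverse_eq_inv', Matrix.smul_mulVec,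
        ← Matrix.cramer_eq_adjugate_mulVec, Pi.smul_apply, Matrix.cramer_apply, smul_eq_mul]
    show |(A⁻¹ *ᵥ (x - p).ofLp) i| ≤ 1
    rw [hcr, abs_mul, abs_inv, inv_mul_le_iff₀ hpos, mul_one]
    exact hup

end Vale.Agent.Lib.P243.R3.H10
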